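import Vale.Agent.P225.Yau.Count
import Vale.Agent.P225.Yau.Sharp
import Vale.Agent.P225.Yau.Euclid

/-!
# P225: Yau's dimension comparison up to an explicit factor

In a proper space satisfying the second variation inequality of nonnegative Ricci curvature in
dimension `n`, `h` independent harmonic functions of growth at most `d` satisfy
`h y^d (1-y)^n ≤ 1` for every `y` in `(0,1)`. At integer `k` this is the Euclidean dimension times
`e √(min n k) (1 + k/(2n))`. Euclidean space is an instance.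
-/

namespace Vale.Agent.Results.P225.DimensionFreeYau

open Vale.Agent.P225.Yau

universe u

theorem result :
    (∀ (n : ℕ) (X : Type u) [MetricSpace X] [ProperSpace X] (e : X → Vec n → X),
      NonnegRicci n X e → ∀ (o : X) (h : ℕ) (u : Fin h → X → ℝ), LinearIndependent ℝ u →
      (∀ i, IsHarmonic e (u i)) →
      (∀ d : ℝ, 0 ≤ d → (∀ i, GrowthLE o d (u i)) →
        ∀ y : ℝ, 0 < y → y < 1 → (h : ℝ) * y ^ d * (1 - y) ^ n ≤ 1) ∧
      (∀ k : ℕ, 1 ≤ n → 1 ≤ k → (∀ i, GrowthLE o (k : ℝ) (u i)) →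
        (h : ℝ) ≤ (1 + (k : ℝ) / n) ^ n * (1 + (n : ℝ) / k) ^ k ∧
        (h : ℝ) ≤ Real.exp 1 * Real.sqrt (min n k : ℕ) * (1 + (k : ℝ) / (2 * n)) *
          (((n + k - 1).choose k + (n + k - 2).choose (k - 1) : ℕ) : ℝ))) ∧
    ∀ n : ℕ, NonnegRicci n (Vec n) (euclidExp n) ∧
      IsHarmonic (euclidExp n) (fun _ : Vec n => (1 : ℝ)) ∧
      ∀ i : Fin n, IsHarmonic (euclidExp n) (fun x : Vec n => x i) ∧
        GrowthLE (0 : Vec n) 1 (fun x : Vec n => x i) := by
  refine ⟨fun n X _ _ e hR o h u hli hu => ⟨fun d hd hg y hy hy1 =>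
    card_mul_le hR o hd u hli hu hg hy hy1, fun k hn hk hg => ?_⟩,
    fun n => ⟨nonnegRicci_euclid n, isHarmonic_const 1,
      fun i => ⟨isHarmonic_coord i, growthLE_coord i⟩⟩⟩
  have hy : ∀ y : ℝ, 0 < y → y < 1 → (h : ℝ) * y ^ (k : ℝ) * (1 - y) ^ n ≤ 1 := fun y hy hy1 =>
    card_mul_le hR o (Nat.cast_nonneg k) u hli hu hg hy hy1
  exact ⟨le_pow_mul_pow_of_bound hn hk hy, le_min_euclid_of_bound hn hk hy⟩

end Vale.Agent.Results.P225.DimensionFreeYau
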